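/-
S0170 team project (architect: helper21).  Shared DEFINITIONS only (no sorry in this file).
Plain-text plan: see the S0170 thread on the board and Crest/Agent/Helper21/BoxFlow/Spec.lean.
-/
import Mathlib
import Crest.Prelude.Def_BoxFlow

set_option autoImplicit false
open scoped ContDiff
open Crest.AnalysisR.BoxFlow

namespace Crest.Agent.Helper21

noncomputable section

/-- Three-space. -/
abbrev Sp : Type := Fin 3 → ℝ

/-- The affine functional `x ↦ α + ∑ j, w j * x j` with rational data. -/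
def affFun (α : ℚ) (w : Fin 3 → ℚ) (x : Sp) : ℝ := (α : ℝ) + ∑ j, (w j : ℝ) * x j

/-- Shear-translation along the coordinate axis `d`: `x ↦ x + (α + ⟨w, x⟩) e_d`.
Always used with `w d = 0`, so that it is the time-one map of the divergence-free field
`x ↦ (α + ⟨w, x⟩) e_d`, with inverse `shearMap d (-α) (-w)`. -/
def shearMap (d : Fin 3) (α : ℚ) (w : Fin 3 → ℚ) (x : Sp) : Sp :=
  x + affFun α w x • (Pi.single d (1 : ℝ) : Sp)

/-- Open axis-parallel cell with rational corners. -/
def openCell (lo hi : Fin 3 → ℚ) : Set Sp := {x | ∀ j, (lo j : ℝ) < x j ∧ x j < (hi j : ℝ)}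

/-- Closed axis-parallel cell with rational corners. -/
def closedCell (lo hi : Fin 3 → ℚ) : Set Sp := {x | ∀ j, (lo j : ℝ) ≤ x j ∧ x j ≤ (hi j : ℝ)}

/-- A configuration: the current position map of every box (box `i` currently occupies
`C i '' box (a i) (h i)`). -/
abbrev Config (n : ℕ) : Type := Fin n → Sp → Sp

/-- One elementary move: box `i` is moved by the shear-translation `shearMap d α w` inside the
open cell `(lo, hi)` (it lies in the cell before and after), while every other box stays outside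
the closed cell enlarged by the margin `m` (where the moving field is supported). -/
def Step {n : ℕ} (a h : Fin n → Fin 3 → ℚ) (C C' : Config n) : Prop :=
  ∃ (i : Fin n) (d : Fin 3) (α : ℚ) (w lo hi : Fin 3 → ℚ) (m : ℚ),
    w d = 0 ∧ (∀ j, lo j < hi j) ∧ 0 < m ∧
    (∀ x ∈ box (a i) (h i), C i x ∈ openCell lo hi ∧ shearMap d α w (C i x) ∈ openCell lo hi) ∧
    (∀ j, j ≠ i → ∀ x ∈ box (a j) (h j),
        C j x ∉ closedCell (fun l => lo l - m) (fun l => hi l + m)) ∧
    C' = Function.update C i (fun x => shearMap d α w (C i x))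

/-- `Ψ` is the flow of `U` that is the identity up to time `t₀`. -/
def IsFlowFrom (t₀ : ℝ) (U : Field) (Ψ : ℝ → Sp → Sp) : Prop :=
  (∀ t x, t ≤ t₀ → Ψ t x = x) ∧ ∀ t x, HasDerivAt (fun s => Ψ s x) (U (t, Ψ t x)) t

/-- The configuration `C` is realised at time `T` by an admissible velocity field: smooth,
compactly supported, effective, divergence-free, active only for times in `(1/4, T)`, whose flow
from the identity equals `C i` near the `i`-th source box for all times `≥ T`. -/
def Reach {n : ℕ} (a h : Fin n → Fin 3 → ℚ) (T : ℝ) (C : Config n) : Prop :=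
  ∃ (U : Field) (Φ : ℝ → Sp → Sp),
    ContDiff ℝ ∞ U ∧ HasCompactSupport U ∧ Effective U ∧
    (∀ p : ℝ × Sp, p.1 ≤ 1 / 4 ∨ T ≤ p.1 → U p = 0) ∧
    (∀ p : ℝ × Sp, spaceDiv U p = 0) ∧ IsFlow U Φ ∧
    ∀ i : Fin n, ∃ O : Set Sp, IsOpen O ∧ box (a i) (h i) ⊆ O ∧
      ∀ x ∈ O, ∀ t : ℝ, T ≤ t → Φ t x = C i x

/-- Parking position of box `i`: the point `(R (i+1), 0, 0)`. -/
def parkPos {n : ℕ} (R : ℚ) (i : Fin n) : Fin 3 → ℚ := ![R * ((i : ℕ) + 1), 0, 0]

/-- The target affine map of box `i`. -/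
def targetMap {n : ℕ} (a b h k : Fin n → Fin 3 → ℚ) : Config n :=
  fun i x j => (b i j : ℝ) + ((k i j / h i j : ℚ) : ℝ) * (x j - (a i j : ℝ))

/-- The smooth step: `0` on `(-∞, 0]`, `1` on `[1, ∞)`. -/
def stp (x : ℝ) : ℝ := Real.smoothTransition x

/-- The plateau function: `1` on `[lo, hi]`, `0` outside `(lo - m, hi + m)` (for `m > 0`). -/
def plat (lo hi m : ℚ) (x : ℝ) : ℝ :=
  stp ((x - ((lo : ℝ) - m)) / m) * stp ((((hi : ℝ) + m) - x) / m)

/-- The time profile of a move active in `[t₀, t₁]`: `0` for `t ≤ t₀`, `1` for `t ≥ t₁`. -/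
def timeProfile (t₀ t₁ : ℚ) (t : ℝ) : ℝ := stp ((t - t₀) / ((t₁ : ℝ) - t₀))

/-- The scalar potential `f` with `∂_b f = α + w_b x_b + w_c x_c` and `∂_a f = 0`, where
`b = a + 1`, `c = a + 2` (indices in `Fin 3`): `f x = x_b (α + w_b x_b / 2 + w_c x_c)`. -/
def potF (a : Fin 3) (α : ℚ) (w : Fin 3 → ℚ) (x : Sp) : ℝ :=
  x (a + 1) * ((α : ℝ) + (w (a + 1) : ℝ) * x (a + 1) / 2 + (w (a + 2) : ℝ) * x (a + 2))

/-- The velocity field of one elementary move (direction `a`, functional `α + ⟨w, x⟩` with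
`w a = 0`, cell `(lo, hi)`, margin `m`, active time `[t₀, t₁]`).  With `χ = ∏ⱼ plat (lo j) (hi j) m`,
`S = timeProfile t₀ t₁`, `b = a + 1`, `c = a + 2` it is `S'(t) * curl (χ f e_c)`:
component `a` is `S' ∂_b (χ f)`, component `b` is `- S' ∂_a (χ f)`, component `c` is `0`. -/
def moveField (a : Fin 3) (α : ℚ) (w lo hi : Fin 3 → ℚ) (m t₀ t₁ : ℚ) : Field :=
  fun p =>
    let x : Sp := p.2
    let S' : ℝ := deriv (timeProfile t₀ t₁) p.1
    let pl : Fin 3 → ℝ := fun j => plat (lo j) (hi j) m (x j)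
    let pl' : Fin 3 → ℝ := fun j => deriv (plat (lo j) (hi j) m) (x j)
    let lam : ℝ := (α : ℝ) + (w (a + 1) : ℝ) * x (a + 1) + (w (a + 2) : ℝ) * x (a + 2)
    fun j =>
      if j = a then
        S' * (pl a * pl (a + 2) * (pl' (a + 1) * potF a α w x + pl (a + 1) * lam))
      else if j = a + 1 then
        -(S' * (pl' a * pl (a + 1) * pl (a + 2) * potF a α w x))
      else 0

end

end Crest.Agent.Helper21
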