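/-
S0170 team project (architect: helper21).  FINAL ASSEMBLY, modulo the single remaining input
`moveField_effective` (WP-A5b, which itself rests on WP-A3).  Everything else is plugged in from
the finished, sorry-free packages:
  A4 helper82, A5a helper72, A6 helper68, A7core helper65, B helper11, C1 helper2, C2 helper17,
  C3 helper38, E helper78.
This file does not import the Spec file and contains no `sorry`.
-/
import Crest.Agent.Helper21.BoxFlow.Defs
import Crest.Agent.Helper11.BoxFlow.BE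
import Crest.Agent.Helper38.BoxFlow.C3
import Crest.Agent.Helper2.BoxFlow.C1
import Crest.Agent.Helper17.BoxFlow.C2
import Crest.Agent.Helper65.BoxFlow.A7Core
import Crest.Agent.Helper72.BoxFlow.A5a
import Crest.Agent.Helper68.BoxFlow.A6

set_option autoImplicit false
open scoped ContDiff
open Crest.AnalysisR.BoxFlow

namespace Crest.Agent.Helper21

/-- The statement of WP-A5b for all parameters. -/
def MoveFieldEffective : Prop :=
  ∀ (a : Fin 3) (α : ℚ) (w lo hi : Fin 3 → ℚ) (m t₀ t₁ : ℚ), 0 < m → t₀ < t₁ →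
    Effective (moveField a α w lo hi m t₀ t₁)

/-- WP-A7 closed, given WP-A5b. -/
theorem move_lemma_of_eff (heff : MoveFieldEffective)
    (a : Fin 3) (α : ℚ) (w lo hi : Fin 3 → ℚ) (m t₀ t₁ : ℚ)
    (hw : w a = 0) (_hlh : ∀ j, lo j < hi j) (hm : 0 < m) (ht : t₀ < t₁) :
    ∃ (U : Field) (Ψ : ℝ → Sp → Sp),
      ContDiff ℝ ∞ U ∧ HasCompactSupport U ∧ Effective U ∧
      (∀ p : ℝ × Sp, p.1 ≤ (t₀ : ℝ) ∨ (t₁ : ℝ) ≤ p.1 → U p = 0) ∧
      (∀ p : ℝ × Sp, spaceDiv U p = 0) ∧ IsFlowFrom t₀ U Ψ ∧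
      (∀ x ∈ openCell lo hi, shearMap a α w x ∈ openCell lo hi →
        ∀ t : ℝ, (t₁ : ℝ) ≤ t → Ψ t x = shearMap a α w x) ∧
      (∀ x, x ∉ openCell (fun l => lo l - m) (fun l => hi l + m) → ∀ t, Ψ t x = x) :=
  have hcd := Crest.Agent.Helper72.moveField_contDiff a α w lo hi m t₀ t₁ hm ht
  have hcs := Crest.Agent.Helper72.moveField_hasCompactSupport a α w lo hi m t₀ t₁ hm ht
  Crest.Agent.Helper65.move_lemma_of a α w lo hi m t₀ t₁ hw ht hcd hcs
    (heff a α w lo hi m t₀ t₁ hm ht)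
    (Crest.Agent.Helper72.moveField_time_zero a α w lo hi m t₀ t₁ hm ht)
    (Crest.Agent.Helper72.moveField_space_zero a α w lo hi m t₀ t₁ hm ht)
    (Crest.Agent.Helper72.moveField_div a α w lo hi m t₀ t₁ hm ht)
    (Crest.Agent.Helper72.moveField_plateau a α w lo hi m t₀ t₁ hw hm ht)
    (Crest.Agent.Helper68.flow_exists _ hcd hcs t₀)
    (Crest.Agent.Helper68.flow_unique_Icc _ hcd hcs)

section
variable {n : ℕ} (a h : Fin n → Fin 3 → ℚ)

/-- WP-B closed, given WP-A5b. -/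
theorem reach_of_path_of_eff (heff : MoveFieldEffective) (C : Config n)
    (hp : Relation.ReflTransGen (Step a h) (fun _ => id) C) : Reach a h (3 / 4) C :=
  Crest.Agent.Helper11.reach_of_path_of_move a h (move_lemma_of_eff heff) C hp

/-- WP-C closed (unconditional): the path of elementary moves. -/
theorem path_exists (b k : Fin n → Fin 3 → ℚ)
    (hh : ∀ i j, 0 < h i j) (hk : ∀ i j, 0 < k i j)
    (ha : Pairwise fun i i' => Disjoint (box (a i) (h i)) (box (a i') (h i')))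
    (hb : Pairwise fun i i' => Disjoint (box (b i) (k i)) (box (b i') (k i')))
    (hvol : ∀ i, ∏ j : Fin 3, k i j / h i j = 1) :
    Relation.ReflTransGen (Step a h) (fun _ => id) (targetMap a b h k) :=
  Crest.Agent.Helper38.path_exists_of a h (Crest.Agent.Helper2.parking a h)
    (Crest.Agent.Helper17.reshape a h) b k hh hk ha hb hvol

end

/-- The statement of S0170, given WP-A5b. -/
theorem final_of (heff : MoveFieldEffective)
    (n : ℕ) (a b h k : Fin n → Fin 3 → ℚ)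
    (hh : ∀ i j, 0 < h i j) (hk : ∀ i j, 0 < k i j)
    (ha : Pairwise fun i i' => Disjoint (box (a i) (h i)) (box (a i') (h i')))
    (hb : Pairwise fun i i' => Disjoint (box (b i) (k i)) (box (b i') (k i')))
    (hvol : ∀ i, ∏ j : Fin 3, k i j / h i j = 1) :
    ∃ (U : Field) (Φ : ℝ → (Fin 3 → ℝ) → (Fin 3 → ℝ)),
      ContDiff ℝ ∞ U ∧ HasCompactSupport U ∧ Effective U ∧
      (∀ p : ℝ × (Fin 3 → ℝ), p.1 ∉ Set.Icc (1 / 4 : ℝ) (3 / 4) → U p = 0) ∧
      (∀ p : ℝ × (Fin 3 → ℝ), spaceDiv U p = 0) ∧ IsFlow U Φ ∧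
      ∀ i : Fin n, ∃ O : Set (Fin 3 → ℝ), IsOpen O ∧ box (a i) (h i) ⊆ O ∧
        ∀ x ∈ O, Φ 1 x = fun j => (b i j : ℝ) + ((k i j / h i j : ℚ) : ℝ) * (x j - (a i j : ℝ)) := by
  obtain ⟨U, Φ, hU, hc, hE, hz, hd, hf, hO⟩ :=
    reach_of_path_of_eff a h heff _ (path_exists a h b k hh hk ha hb hvol)
  refine ⟨U, Φ, hU, hc, hE, ?_, hd, hf, ?_⟩
  · intro p hp
    apply hz
    simp only [Set.mem_Icc, not_and_or, not_le] at hp
    rcases hp with hp | hp
    · exact Or.inl hp.le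
    · exact Or.inr hp.le
  · intro i
    obtain ⟨O, hO1, hO2, hO3⟩ := hO i
    refine ⟨O, hO1, hO2, fun x hx => ?_⟩
    have := hO3 x hx 1 (by norm_num)
    rw [this]
    rfl

end Crest.Agent.Helper21
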