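/-
S0170 team project, WP-M (helper21): basic facts about `mixedDeriv`.
-/
import Crest.Agent.Helper21.BoxFlow.Defs

set_option autoImplicit false
open scoped ContDiff
open Crest.AnalysisR.BoxFlow

namespace Crest.Agent.Helper21

theorem mixedDeriv_nil (F : Field) : mixedDeriv [] F = F := rfl

theorem mixedDeriv_cons (d : Fin 4) (ds : List (Fin 4)) (F : Field) :
    mixedDeriv (d :: ds) F = fun p => fderiv ℝ (mixedDeriv ds F) p (direction d) := rfl

theorem mixedDeriv_append (ds ds' : List (Fin 4)) (F : Field) :
    mixedDeriv (ds ++ ds') F = mixedDeriv ds (mixedDeriv ds' F) := by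
  induction ds with
  | nil => rfl
  | cons d ds ih => simp only [List.cons_append, mixedDeriv_cons, ih]

theorem mixedDeriv_contDiff {F : Field} (hF : ContDiff ℝ ∞ F) (ds : List (Fin 4)) :
    ContDiff ℝ ∞ (mixedDeriv ds F) := by
  induction ds with
  | nil => exact hF
  | cons d ds ih =>
    rw [mixedDeriv_cons]
    have h1 : ContDiff ℝ ∞ (fderiv ℝ (mixedDeriv ds F)) := ih.fderiv_right (by simp)
    exact h1.clm_apply contDiff_const

theorem mixedDeriv_differentiable {F : Field} (hF : ContDiff ℝ ∞ F) (ds : List (Fin 4)) :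
    Differentiable ℝ (mixedDeriv ds F) :=
  (mixedDeriv_contDiff hF ds).differentiable (by simp)

theorem mixedDeriv_zero (ds : List (Fin 4)) : mixedDeriv ds (fun _ => 0) = fun _ => 0 := by
  induction ds with
  | nil => rfl
  | cons d ds ih =>
    rw [mixedDeriv_cons, ih]
    funext p
    simp

theorem mixedDeriv_add {F G : Field} (hF : ContDiff ℝ ∞ F) (hG : ContDiff ℝ ∞ G)
    (ds : List (Fin 4)) :
    mixedDeriv ds (fun p => F p + G p) = fun p => mixedDeriv ds F p + mixedDeriv ds G p := by
  induction ds with
  | nil => rfl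
  | cons d ds ih =>
    rw [mixedDeriv_cons, ih]
    funext p
    rw [fderiv_fun_add ((mixedDeriv_differentiable hF ds) p) ((mixedDeriv_differentiable hG ds) p)]
    rfl

theorem mixedDeriv_neg {F : Field} (ds : List (Fin 4)) :
    mixedDeriv ds (fun p => - F p) = fun p => - mixedDeriv ds F p := by
  induction ds with
  | nil => rfl
  | cons d ds ih =>
    rw [mixedDeriv_cons, ih]
    funext p
    rw [fderiv_fun_neg]
    rfl

theorem mixedDeriv_sub {F G : Field} (hF : ContDiff ℝ ∞ F) (hG : ContDiff ℝ ∞ G)
    (ds : List (Fin 4)) :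
    mixedDeriv ds (fun p => F p - G p) = fun p => mixedDeriv ds F p - mixedDeriv ds G p := by
  induction ds with
  | nil => rfl
  | cons d ds ih =>
    rw [mixedDeriv_cons, ih]
    funext p
    rw [fderiv_fun_sub ((mixedDeriv_differentiable hF ds) p) ((mixedDeriv_differentiable hG ds) p)]
    rfl

theorem mixedDeriv_const_smul {F : Field} (hF : ContDiff ℝ ∞ F) (c : ℝ) (ds : List (Fin 4)) :
    mixedDeriv ds (fun p => c • F p) = fun p => c • mixedDeriv ds F p := by
  induction ds with
  | nil => rfl
  | cons d ds ih =>
    rw [mixedDeriv_cons, ih]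
    funext p
    rw [fderiv_fun_const_smul ((mixedDeriv_differentiable hF ds) p)]
    rfl

/-- Translation invariance. -/
theorem mixedDeriv_comp_add (F : Field) (v : ℝ × Sp) (ds : List (Fin 4)) :
    mixedDeriv ds (fun p => F (p + v)) = fun p => mixedDeriv ds F (p + v) := by
  induction ds with
  | nil => rfl
  | cons d ds ih =>
    rw [mixedDeriv_cons, ih]
    funext p
    rw [fderiv_comp_add_right]
    rfl

/-- Post-composition with a continuous linear map. -/
theorem mixedDeriv_clm_comp {F : Field} (hF : ContDiff ℝ ∞ F) (L : Sp →L[ℝ] Sp)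
    (ds : List (Fin 4)) :
    mixedDeriv ds (fun p => L (F p)) = fun p => L (mixedDeriv ds F p) := by
  induction ds with
  | nil => rfl
  | cons d ds ih =>
    rw [mixedDeriv_cons, ih]
    funext p
    have h := (mixedDeriv_differentiable hF ds) p
    have : fderiv ℝ (fun p => L (mixedDeriv ds F p)) p = L.comp (fderiv ℝ (mixedDeriv ds F) p) :=
      (L.hasFDerivAt.comp p h.hasFDerivAt).fderiv
    rw [this]
    rfl

/-- The scalar version of `mixedDeriv`. -/
noncomputable def mixedDerivS : List (Fin 4) → (ℝ × Sp → ℝ) → (ℝ × Sp → ℝ)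
  | [], θ => θ
  | d :: ds, θ => fun p => fderiv ℝ (mixedDerivS ds θ) p (direction d)

theorem mixedDerivS_cons (d : Fin 4) (ds : List (Fin 4)) (θ : ℝ × Sp → ℝ) :
    mixedDerivS (d :: ds) θ = fun p => fderiv ℝ (mixedDerivS ds θ) p (direction d) := rfl

theorem mixedDerivS_contDiff {θ : ℝ × Sp → ℝ} (hθ : ContDiff ℝ ∞ θ) (ds : List (Fin 4)) :
    ContDiff ℝ ∞ (mixedDerivS ds θ) := by
  induction ds with
  | nil => exact hθ
  | cons d ds ih =>
    rw [mixedDerivS_cons]
    have h1 : ContDiff ℝ ∞ (fderiv ℝ (mixedDerivS ds θ)) := ih.fderiv_right (by simp)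
    exact h1.clm_apply contDiff_const

/-- Components of `mixedDeriv` are scalar mixed derivatives of the components. -/
theorem mixedDeriv_apply {F : Field} (hF : ContDiff ℝ ∞ F) (ds : List (Fin 4)) (j : Fin 3) :
    (fun p => mixedDeriv ds F p j) = mixedDerivS ds (fun p => F p j) := by
  induction ds with
  | nil => rfl
  | cons d ds ih =>
    rw [mixedDeriv_cons, mixedDerivS_cons, ← ih]
    funext p
    have h := (mixedDeriv_differentiable hF ds) p
    have : fderiv ℝ (fun p => mixedDeriv ds F p j) p
        = (ContinuousLinearMap.proj (R := ℝ) (φ := fun _ : Fin 3 => ℝ) j).comp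
            (fderiv ℝ (mixedDeriv ds F) p) :=
      ((ContinuousLinearMap.proj (R := ℝ) (φ := fun _ : Fin 3 => ℝ) j).hasFDerivAt.comp p
        h.hasFDerivAt).fderiv
    rw [this]
    rfl

/-- A field with a single non-zero component. -/
theorem mixedDeriv_single {θ : ℝ × Sp → ℝ} (hθ : ContDiff ℝ ∞ θ) (c : Fin 3)
    (ds : List (Fin 4)) (p : ℝ × Sp) (j : Fin 3) :
    mixedDeriv ds (fun p => (Pi.single c (θ p) : Sp)) p j
      = if j = c then mixedDerivS ds θ p else 0 := by
  have hF : ContDiff ℝ ∞ (fun p => (Pi.single c (θ p) : Sp)) := by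
    rw [contDiff_pi]
    intro i
    by_cases hi : i = c
    · subst hi; simpa using hθ
    · simpa [Pi.single_eq_of_ne hi] using (contDiff_const : ContDiff ℝ ∞ fun _ : ℝ × Sp => (0:ℝ))
  have := congrFun (mixedDeriv_apply hF ds j) p
  rw [this]
  by_cases hj : j = c
  · subst hj; simp
  · simp only [Pi.single_eq_of_ne hj, if_neg hj]
    clear this
    induction ds generalizing p with
    | nil => rfl
    | cons d ds ih =>
      rw [mixedDerivS_cons]
      have : mixedDerivS ds (fun _ : ℝ × Sp => (0:ℝ)) = fun _ => 0 := by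
        funext q; exact ih q
      rw [this]; simp

/-- The `d`-th space-time coordinate (index `0` = time, index `j + 1` = `x j`). -/
def coord (d : Fin 4) (p : ℝ × Sp) : ℝ := if h : d = 0 then p.1 else p.2 (d.pred h)

/-- `coord d` as a continuous linear map. -/
def coordL (d : Fin 4) : (ℝ × Sp) →L[ℝ] ℝ :=
  if h : d = 0 then ContinuousLinearMap.fst ℝ ℝ Sp
  else (ContinuousLinearMap.proj (R := ℝ) (φ := fun _ : Fin 3 => ℝ) (d.pred h)).comp
    (ContinuousLinearMap.snd ℝ ℝ Sp)

theorem coordL_apply (d : Fin 4) (p : ℝ × Sp) : coordL d p = coord d p := by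
  unfold coordL coord
  split_ifs <;> rfl

theorem coord_direction (d d' : Fin 4) : coord d (direction d') = if d = d' then 1 else 0 := by
  unfold coord direction
  by_cases h : d = 0 <;> by_cases h' : d' = 0
  · subst h; subst h'; simp
  · subst h; simp [h', Ne.symm h']
  · subst h'; simp [h]
  · simp only [h, h', dite_false]
    by_cases e : d = d'
    · subst e; simp
    · have : d.pred h ≠ d'.pred h' := by
        intro hh; exact e (Fin.pred_inj.mp hh)
      simp [e, this]

theorem contDiff_coord (d : Fin 4) : ContDiff ℝ ∞ (coord d) := by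
  have : coord d = coordL d := by funext p; rw [coordL_apply]
  rw [this]; exact (coordL d).contDiff

/-- Mixed derivatives of a product of functions of the single coordinates. -/
theorem mixedDerivS_tensor (g : Fin 4 → ℝ → ℝ) (hg : ∀ d, ContDiff ℝ ∞ (g d))
    (ds : List (Fin 4)) :
    mixedDerivS ds (fun p => ∏ d, g d (coord d p))
      = fun p => ∏ d, iteratedDeriv (ds.count d) (g d) (coord d p) := by
  induction ds with
  | nil => funext p; simp [mixedDerivS]
  | cons d' ds ih =>
    rw [mixedDerivS_cons, ih]
    funext p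
    have hG : ∀ d, ContDiff ℝ ∞ (iteratedDeriv (ds.count d) (g d)) := fun d => by
      rw [iteratedDeriv_eq_iterate]
      exact ContDiff.iterate_deriv _ (hg d)
    have hd : ∀ d ∈ (Finset.univ : Finset (Fin 4)),
        HasFDerivAt (fun p => iteratedDeriv (ds.count d) (g d) (coord d p))
          (deriv (iteratedDeriv (ds.count d) (g d)) (coord d p) • coordL d) p := by
      intro d _
      have h1 : HasDerivAt (iteratedDeriv (ds.count d) (g d))
          (deriv (iteratedDeriv (ds.count d) (g d)) (coord d p)) (coord d p) :=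
        ((hG d).differentiable (by simp) _).hasDerivAt
      have h2 : HasFDerivAt (coord d) (coordL d) p := by
        have : coord d = coordL d := by funext p; rw [coordL_apply]
        rw [this]; exact (coordL d).hasFDerivAt
      exact h1.comp_hasFDerivAt p h2
    have := (HasFDerivAt.finsetProd hd).fderiv
    rw [this]
    simp only [_root_.sum_apply, _root_.smul_apply, coordL_apply,
      coord_direction, smul_eq_mul]
    rw [Finset.sum_eq_single d']
    · rw [← Finset.mul_prod_erase Finset.univ _ (Finset.mem_univ d')]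
      simp only [List.count_cons_self, if_true, mul_one]
      rw [iteratedDeriv_succ, mul_comm]
      congr 1
      apply Finset.prod_congr rfl
      intro e he
      have : e ≠ d' := Finset.ne_of_mem_erase he
      rw [List.count_cons_of_ne (Ne.symm this)]
    · intro b _ hb
      simp [hb]
    · intro h; exact absurd (Finset.mem_univ d') h

/-- Vector version: a field with one non-zero component which is a product of functions of the
single coordinates. -/
theorem mixedDeriv_single_tensor (g : Fin 4 → ℝ → ℝ) (hg : ∀ d, ContDiff ℝ ∞ (g d)) (c : Fin 3)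
    (ds : List (Fin 4)) (p : ℝ × Sp) (j : Fin 3) :
    mixedDeriv ds (fun p => (Pi.single c (∏ d, g d (coord d p)) : Sp)) p j
      = if j = c then ∏ d, iteratedDeriv (ds.count d) (g d) (coord d p) else 0 := by
  have hθ : ContDiff ℝ ∞ (fun p : ℝ × Sp => ∏ d, g d (coord d p)) :=
    contDiff_prod fun d _ => (hg d).comp (contDiff_coord d)
  rw [mixedDeriv_single hθ, mixedDerivS_tensor g hg]

end Crest.Agent.Helper21
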