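/-
S0170 team project (architect: helper21).  FINAL ASSEMBLY, second stage: everything plugged in
except (i) WP-A3 (`effective_of_values_bounds`) and (ii) the computable VALUES of `thetaField` at
rational points.  No `sorry`, no Spec import.
-/
import Crest.Agent.Helper21.BoxFlow.FinalOf
import Crest.Agent.Helper68.BoxFlow.A5bId
import Crest.Agent.Helper31.BoxFlow.ThetaBound
import Crest.Agent.Helper44.BoxFlow.A1
import Crest.Agent.Helper82.RatComp

set_option autoImplicit false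
open scoped ContDiff
open Crest.AnalysisR.BoxFlow

namespace Crest.Agent.Helper21

/-- The statement of WP-A3. -/
def A3Statement : Prop :=
  ∀ (F : Field) (_hF : ContDiff ℝ ∞ F)
    (E₀ : (ℚ × (Fin 3 → ℚ)) × ℕ → (Fin 3 → ℚ)) (_hE₀ : Computable E₀)
    (_hval : ∀ (t : ℚ) (q : Fin 3 → ℚ) (n : ℕ) (j : Fin 3),
      |F ((t : ℝ), ratPoint q) j - (E₀ ((t, q), n) j : ℝ)| ≤ 1 / ((n : ℝ) + 1))
    (bound : List (Fin 4) → ℕ) (_hb : Computable bound)
    (_hbound : ∀ (ds : List (Fin 4)) (p : ℝ × (Fin 3 → ℝ)) (j : Fin 3),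
      |mixedDeriv ds F p j| ≤ (bound ds : ℝ)),
    Effective F

/-- The statement "the values of `thetaField` at rational points are computably approximable". -/
def ThetaValues : Prop :=
  ∀ (e a : Fin 3) (α : ℚ) (w lo hi : Fin 3 → ℚ) (m t₀ t₁ : ℚ), 0 < m → t₀ < t₁ →
    ∃ E₀ : (ℚ × (Fin 3 → ℚ)) × ℕ → (Fin 3 → ℚ), Computable E₀ ∧
      ∀ (t : ℚ) (q : Fin 3 → ℚ) (n : ℕ) (j : Fin 3),
        |Crest.Agent.Helper68.thetaField e a α w lo hi m t₀ t₁ ((t : ℝ), ratPoint q) j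
            - (E₀ ((t, q), n) j : ℝ)| ≤ 1 / ((n : ℝ) + 1)

theorem thetaField_effective_of (hA3 : A3Statement) (hV : ThetaValues)
    (e a : Fin 3) (α : ℚ) (w lo hi : Fin 3 → ℚ) (m t₀ t₁ : ℚ) (hm : 0 < m) (ht : t₀ < t₁) :
    Effective (Crest.Agent.Helper68.thetaField e a α w lo hi m t₀ t₁) := by
  obtain ⟨E₀, hE₀, hval⟩ := hV e a α w lo hi m t₀ t₁ hm ht
  obtain ⟨bound, hb, hbound⟩ :=
    Crest.Agent.Helper31.thetaField_bound Crest.Agent.Helper44.stp_iteratedDeriv_bound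
      e a α w lo hi m t₀ t₁ hm ht
  exact hA3 _ (Crest.Agent.Helper31.contDiff_thetaField e a α w lo hi m t₀ t₁)
    E₀ hE₀ hval bound hb hbound

theorem moveFieldEffective_of (hA3 : A3Statement) (hV : ThetaValues) : MoveFieldEffective :=
  fun a α w lo hi m t₀ t₁ hm ht =>
    Crest.Agent.Helper68.moveField_effective_of Crest.Agent.Helper82.rat_add a α w lo hi m t₀ t₁
      (fun e α' w' => thetaField_effective_of hA3 hV e a α' w' lo hi m t₀ t₁ hm ht)

end Crest.Agent.Helper21
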