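/-
S0170 team project (helper21): computable VALUES of `thetaField` at rational points
(the statement `ThetaValues` of FinalOf2.lean).  No `sorry`, no Spec import.
-/
import Crest.Agent.Helper21.BoxFlow.FinalOf2
import Crest.Agent.Helper19.BoxFlow.A2Final
import Crest.Agent.Helper82.CompList

set_option autoImplicit false
open scoped ContDiff
open Crest.AnalysisR.BoxFlow

namespace Crest.Agent.Helper21

/-! ### closeness of a real in `[0,1]` to a rational in `[0,1]` -/

/-- `s ∈ [0,1]`, `c ∈ [0,1]` and `|s - c| ≤ ε`. -/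
def Close (s : ℝ) (c : ℚ) (ε : ℝ) : Prop :=
  0 ≤ s ∧ s ≤ 1 ∧ 0 ≤ (c : ℝ) ∧ (c : ℝ) ≤ 1 ∧ |s - (c : ℝ)| ≤ ε

theorem Close.mul {s s' : ℝ} {c c' : ℚ} {ε ε' : ℝ} (h : Close s c ε) (h' : Close s' c' ε') :
    Close (s * s') (c * c') (ε + ε') := by
  obtain ⟨h1, h2, h3, h4, h5⟩ := h
  obtain ⟨h1', h2', h3', h4', h5'⟩ := h'
  refine ⟨mul_nonneg h1 h1', mul_le_one₀ h2 h1' h2', ?_, ?_, ?_⟩
  · push_cast; exact mul_nonneg h3 h3'
  · push_cast; exact mul_le_one₀ h4 h3' h4'
  · push_cast
    have e : s * s' - (c : ℝ) * (c' : ℝ) = (s - c) * s' + c * (s' - c') := by ring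
    rw [e]
    calc |(s - c) * s' + c * (s' - c')| ≤ |(s - c) * s'| + |(c : ℝ) * (s' - c')| := abs_add_le _ _
      _ = |s - c| * |s'| + |(c : ℝ)| * |s' - c'| := by rw [abs_mul, abs_mul]
      _ ≤ ε * 1 + 1 * ε' := by
          have a1 : |s'| ≤ 1 := by rw [abs_of_nonneg h1']; exact h2'
          have a2 : |(c : ℝ)| ≤ 1 := by rw [abs_of_nonneg h3]; exact h4
          have e0 : 0 ≤ ε := le_trans (abs_nonneg _) h5
          have e0' : 0 ≤ ε' := le_trans (abs_nonneg _) h5'
          exact add_le_add (mul_le_mul h5 a1 (abs_nonneg _) e0)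
            (mul_le_mul a2 h5' (abs_nonneg _) zero_le_one)
      _ = ε + ε' := by ring

/-! ### clamped approximation of the smooth step -/

/-- The approximation of `stp r` with precision `N`, clamped to `[0,1]`. -/
def stpC (r : ℚ) (N : ℕ) : ℚ := max 0 (min 1 (Crest.Agent.Helper19.stpApprox (r, N)))

theorem stpC_close (r : ℚ) (N : ℕ) : Close (stp (r : ℝ)) (stpC r N) (1 / ((N : ℝ) + 1)) := by
  have h0 : 0 ≤ stp (r : ℝ) := Real.smoothTransition.nonneg _
  have h1 : stp (r : ℝ) ≤ 1 := Real.smoothTransition.le_one _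
  have hs := Crest.Agent.Helper19.stpApprox_spec r N
  set A : ℚ := Crest.Agent.Helper19.stpApprox (r, N) with hA
  have c0 : (0 : ℚ) ≤ stpC r N := le_max_left _ _
  have c1 : stpC r N ≤ 1 := max_le zero_le_one (min_le_left _ _)
  refine ⟨h0, h1, by exact_mod_cast c0, by exact_mod_cast c1, ?_⟩
  have hc : ((stpC r N : ℚ) : ℝ) = max 0 (min 1 (A : ℝ)) := by
    unfold stpC; rw [← hA]; push_cast; rfl
  rw [hc]
  refine le_trans ?_ hs
  rw [abs_le] at hs ⊢
  rcases le_total (A : ℝ) 0 with hA0 | hA0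
  · rw [max_eq_left (le_trans (min_le_right _ _) hA0)]
    constructor <;> linarith [abs_nonneg (stp (r : ℝ) - A), hs.1, hs.2, abs_le.mp (le_refl |stp (r : ℝ) - A|)]
  · rcases le_total (A : ℝ) 1 with hA1 | hA1
    · rw [min_eq_right hA1, max_eq_right hA0]
      exact abs_le.mp (le_refl _)
    · rw [min_eq_left hA1, max_eq_right zero_le_one]
      constructor <;> linarith [abs_nonneg (stp (r : ℝ) - A), abs_le.mp (le_refl |stp (r : ℝ) - A|)]

/-! ### the rational data of `theta` at a rational point -/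

section data
variable (a : Fin 3) (α : ℚ) (w lo hi : Fin 3 → ℚ) (m t₀ t₁ : ℚ)

/-- argument of the time profile -/
def tArg (x : ℚ × (Fin 3 → ℚ)) : ℚ := (x.1 - t₀) / (t₁ - t₀)
/-- argument of the left step of the `j`-th plateau -/
def lArg (j : Fin 3) (x : ℚ × (Fin 3 → ℚ)) : ℚ := (x.2 j - (lo j - m)) / m
/-- argument of the right step of the `j`-th plateau -/
def rArg (j : Fin 3) (x : ℚ × (Fin 3 → ℚ)) : ℚ := ((hi j + m) - x.2 j) / m
/-- the value of `potF` at a rational point -/
def potQ (x : ℚ × (Fin 3 → ℚ)) : ℚ :=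
  x.2 (a + 1) * (α + w (a + 1) * x.2 (a + 1) / 2 + w (a + 2) * x.2 (a + 2))

/-- the precision used for the seven step values -/
def thN (y : (ℚ × (Fin 3 → ℚ)) × ℕ) : ℕ := 7 * (y.2 + 1) * (⌈|potQ a α w y.1|⌉₊ + 1)

/-- approximation of the `j`-th plateau -/
def platC (j : Fin 3) (x : ℚ × (Fin 3 → ℚ)) (N : ℕ) : ℚ :=
  stpC (lArg lo m j x) N * stpC (rArg hi m j x) N

/-- approximation of `theta` -/
def thVal (y : (ℚ × (Fin 3 → ℚ)) × ℕ) : ℚ :=
  stpC (tArg t₀ t₁ y.1) (thN a α w y) * platC lo hi m a y.1 (thN a α w y)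
    * platC lo hi m (a + 1) y.1 (thN a α w y) * platC lo hi m (a + 2) y.1 (thN a α w y)
    * potQ a α w y.1

theorem timeProfile_rat (x : ℚ × (Fin 3 → ℚ)) :
    timeProfile t₀ t₁ (x.1 : ℝ) = stp ((tArg t₀ t₁ x : ℚ) : ℝ) := by
  unfold timeProfile tArg; push_cast; rfl

theorem plat_rat (j : Fin 3) (x : ℚ × (Fin 3 → ℚ)) :
    plat (lo j) (hi j) m (ratPoint x.2 j) =
      stp ((lArg lo m j x : ℚ) : ℝ) * stp ((rArg hi m j x : ℚ) : ℝ) := by
  unfold plat lArg rArg ratPoint; push_cast; rfl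

theorem potF_rat (x : ℚ × (Fin 3 → ℚ)) :
    potF a α w (ratPoint x.2) = ((potQ a α w x : ℚ) : ℝ) := by
  unfold potF potQ ratPoint; push_cast; rfl

theorem plat_close (j : Fin 3) (x : ℚ × (Fin 3 → ℚ)) (N : ℕ) :
    Close (plat (lo j) (hi j) m (ratPoint x.2 j)) (platC lo hi m j x N)
      (1 / ((N : ℝ) + 1) + 1 / ((N : ℝ) + 1)) := by
  rw [plat_rat]
  exact (stpC_close _ N).mul (stpC_close _ N)

theorem thVal_spec (t : ℚ) (q : Fin 3 → ℚ) (n : ℕ) :
    |Crest.Agent.Helper68.theta a α w lo hi m t₀ t₁ ((t : ℝ), ratPoint q)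
        - (thVal a α w lo hi m t₀ t₁ ((t, q), n) : ℝ)| ≤ 1 / ((n : ℝ) + 1) := by
  set x : ℚ × (Fin 3 → ℚ) := (t, q) with hx
  set N : ℕ := thN a α w ((t, q), n) with hN
  set δ : ℝ := 1 / ((N : ℝ) + 1) with hδ
  have hT : Close (timeProfile t₀ t₁ (t : ℝ)) (stpC (tArg t₀ t₁ x) N) δ := by
    have := timeProfile_rat t₀ t₁ x
    simp only [hx] at this
    rw [this]; exact stpC_close _ N
  have hP : ∀ j, Close (plat (lo j) (hi j) m (ratPoint q j)) (platC lo hi m j x N) (δ + δ) :=
    fun j => plat_close lo hi m j x N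
  have hall := ((hT.mul (hP a)).mul (hP (a + 1))).mul (hP (a + 2))
  obtain ⟨-, -, -, -, hc⟩ := hall
  have hpot := potF_rat a α w x
  simp only [hx] at hpot
  unfold Crest.Agent.Helper68.theta thVal
  simp only []
  rw [hpot]
  push_cast
  rw [← hN, ← hx]
  set P : ℝ := timeProfile t₀ t₁ (t : ℝ) * plat (lo a) (hi a) m (ratPoint q a)
      * plat (lo (a + 1)) (hi (a + 1)) m (ratPoint q (a + 1))
      * plat (lo (a + 2)) (hi (a + 2)) m (ratPoint q (a + 2)) with hPdef
  set Pc : ℝ := ((stpC (tArg t₀ t₁ x) N : ℚ) : ℝ) * ((platC lo hi m a x N : ℚ) : ℝ)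
      * ((platC lo hi m (a + 1) x N : ℚ) : ℝ) * ((platC lo hi m (a + 2) x N : ℚ) : ℝ) with hPc
  have hc' : |P - Pc| ≤ 7 * δ := by
    have : |P - Pc| ≤ δ + (δ + δ) + (δ + δ) + (δ + δ) := by
      rw [hPdef, hPc]; push_cast at hc; exact hc
    linarith
  have e : P * ((potQ a α w x : ℚ) : ℝ) - Pc * ((potQ a α w x : ℚ) : ℝ)
      = (P - Pc) * ((potQ a α w x : ℚ) : ℝ) := by ring
  rw [e, abs_mul]
  -- arithmetic: 7 δ |pot| ≤ 1/(n+1)
  have hn : (0 : ℝ) < (n : ℝ) + 1 := by positivity
  have hNpos : (0 : ℝ) < (N : ℝ) + 1 := by positivity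
  have hceil : |((potQ a α w x : ℚ) : ℝ)| ≤ (⌈|potQ a α w x|⌉₊ : ℝ) := by
    have h1 : |potQ a α w x| ≤ ((⌈|potQ a α w x|⌉₊ : ℕ) : ℚ) := Nat.le_ceil _
    have h2 : ((|potQ a α w x| : ℚ) : ℝ) ≤ (((⌈|potQ a α w x|⌉₊ : ℕ) : ℚ) : ℝ) := by
      exact_mod_cast h1
    simpa using h2
  have hNval : (N : ℝ) = 7 * ((n : ℝ) + 1) * ((⌈|potQ a α w x|⌉₊ : ℝ) + 1) := by
    rw [hN]; unfold thN; push_cast; rfl
  have hpotnn : (0 : ℝ) ≤ |((potQ a α w x : ℚ) : ℝ)| := abs_nonneg _
  calc |P - Pc| * |((potQ a α w x : ℚ) : ℝ)|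
      ≤ 7 * δ * |((potQ a α w x : ℚ) : ℝ)| := mul_le_mul_of_nonneg_right hc' hpotnn
    _ ≤ 1 / ((n : ℝ) + 1) := by
        have h3 : 7 * δ * |((potQ a α w x : ℚ) : ℝ)|
            = (7 * |((potQ a α w x : ℚ) : ℝ)|) / ((N : ℝ) + 1) := by rw [hδ]; ring
        rw [h3, div_le_div_iff₀ hNpos hn]
        have h4 : 7 * |((potQ a α w x : ℚ) : ℝ)| * ((n : ℝ) + 1) ≤ (N : ℝ) := by
          rw [hNval]
          nlinarith [mul_le_mul_of_nonneg_left hceil (by positivity : (0 : ℝ) ≤ 7 * ((n : ℝ) + 1))]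
        linarith

/-! ### computability -/

section comp
open Crest.Agent.Helper82

private theorem c_add {β : Type} [Primcodable β] {f g : β → ℚ} (hf : Computable f)
    (hg : Computable g) : Computable fun y => f y + g y := rat_add.comp hf hg
private theorem c_sub {β : Type} [Primcodable β] {f g : β → ℚ} (hf : Computable f)
    (hg : Computable g) : Computable fun y => f y - g y := rat_sub.comp hf hg
private theorem c_mul {β : Type} [Primcodable β] {f g : β → ℚ} (hf : Computable f)
    (hg : Computable g) : Computable fun y => f y * g y := rat_mul.comp hf hg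
private theorem c_div {β : Type} [Primcodable β] {f g : β → ℚ} (hf : Computable f)
    (hg : Computable g) : Computable fun y => f y / g y := rat_div.comp hf hg

private theorem c_coord (j : Fin 3) :
    Computable fun y : (ℚ × (Fin 3 → ℚ)) × ℕ => y.1.2 j :=
  computable_apply (Computable.snd.comp Computable.fst) j

private theorem c_time : Computable fun y : (ℚ × (Fin 3 → ℚ)) × ℕ => y.1.1 :=
  Computable.fst.comp Computable.fst

theorem computable_stpC {β : Type} [Primcodable β] {f : β → ℚ} {g : β → ℕ}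
    (hf : Computable f) (hg : Computable g) : Computable fun y => stpC (f y) (g y) := by
  have h1 : Computable fun y => Crest.Agent.Helper19.stpApprox (f y, g y) :=
    Crest.Agent.Helper19.computable_stpApprox'.comp (hf.pair hg)
  have h2 : Computable fun y => min 1 (Crest.Agent.Helper19.stpApprox (f y, g y)) :=
    primrec_rat_min.to_comp.comp (Computable.const 1) h1
  exact primrec_rat_max.to_comp.comp (Computable.const 0) h2

theorem computable_potQ : Computable fun y : (ℚ × (Fin 3 → ℚ)) × ℕ => potQ a α w y.1 := by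
  unfold potQ
  exact c_mul (c_coord _) (c_add (c_add (Computable.const α)
    (c_div (c_mul (Computable.const _) (c_coord _)) (Computable.const 2)))
    (c_mul (Computable.const _) (c_coord _)))

theorem computable_thN : Computable (thN a α w) := by
  unfold thN
  have h1 : Computable fun y : (ℚ × (Fin 3 → ℚ)) × ℕ => ⌈|potQ a α w y.1|⌉₊ :=
    rat_natCeil.comp (rat_abs.comp (computable_potQ a α w))
  have h2 : Computable fun y : (ℚ × (Fin 3 → ℚ)) × ℕ => 7 * (y.2 + 1) :=
    (Primrec.nat_mul.to_comp).comp (Computable.const 7)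
      ((Primrec.nat_add.to_comp).comp Computable.snd (Computable.const 1))
  exact (Primrec.nat_mul.to_comp).comp h2
    ((Primrec.nat_add.to_comp).comp h1 (Computable.const 1))

theorem computable_platC (j : Fin 3) :
    Computable fun y : (ℚ × (Fin 3 → ℚ)) × ℕ => platC lo hi m j y.1 (thN a α w y) := by
  unfold platC lArg rArg
  exact c_mul
    (computable_stpC (c_div (c_sub (c_coord j) (Computable.const _)) (Computable.const m))
      (computable_thN a α w))
    (computable_stpC (c_div (c_sub (Computable.const _) (c_coord j)) (Computable.const m))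
      (computable_thN a α w))

theorem computable_thVal : Computable (thVal a α w lo hi m t₀ t₁) := by
  unfold thVal tArg
  exact c_mul (c_mul (c_mul (c_mul
    (computable_stpC (c_div (c_sub c_time (Computable.const t₀)) (Computable.const _))
      (computable_thN a α w))
    (computable_platC a α w lo hi m a)) (computable_platC a α w lo hi m (a + 1)))
    (computable_platC a α w lo hi m (a + 2))) (computable_potQ a α w)

end comp

end data

/-- **Values of `thetaField`**: the statement `ThetaValues`. -/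
theorem thetaValues : ThetaValues := by
  intro e a α w lo hi m t₀ t₁ _hm _ht
  refine ⟨fun y => Pi.single e (thVal a α w lo hi m t₀ t₁ y), ?_, ?_⟩
  · refine Crest.Agent.Helper82.computable_pi (fun j => ?_)
    by_cases hj : j = e
    · subst hj
      simpa using computable_thVal a α w lo hi m t₀ t₁
    · simpa [Pi.single_apply, hj] using
        (Computable.const (0 : ℚ) : Computable fun _ : (ℚ × (Fin 3 → ℚ)) × ℕ => (0 : ℚ))
  · intro t q n j
    unfold Crest.Agent.Helper68.thetaField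
    by_cases hj : j = e
    · subst hj
      simpa using thVal_spec a α w lo hi m t₀ t₁ t q n
    · simp only [Pi.single_apply, hj, if_false, Rat.cast_zero, sub_zero, abs_zero]
      positivity

end Crest.Agent.Helper21
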