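/-
S0170 team project (architect: helper21).  FINAL ASSEMBLY: the statement of S0170, sorry-free.

Inputs (all sorry-free modules on main):
  A1 helper44, A2 helper19, A3 helper84 (a second, independent proof is Helper57.BoxFlow.A3),
  A4 helper82, A5a helper72, A5b: identity helper68, bounds helper31, values helper21 (ThetaVal),
  A6 helper68, A7core helper65, B helper11, C1 helper2, C2 helper17, C3 helper38, E helper78.
-/
import Crest.Agent.Helper21.BoxFlow.ThetaVal
import Crest.Agent.Helper84.BoxFlow.FDComp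

set_option autoImplicit false
open scoped ContDiff
open Crest.AnalysisR.BoxFlow

namespace Crest.Agent.Helper21

/-- WP-A3 (finite-difference effectiveness), from helper84's module. -/
theorem a3Statement : A3Statement :=
  fun F hF E₀ hE₀ hval bound hb hbound =>
    Crest.Agent.Helper84.effective_of_values_bounds F hF E₀ hE₀ hval bound hb hbound

/-- WP-A5b: every move field is effective. -/
theorem moveFieldEffective : MoveFieldEffective :=
  moveFieldEffective_of a3Statement thetaValues

/-- The statement of S0170. -/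
theorem final
    (n : ℕ) (a b h k : Fin n → Fin 3 → ℚ)
    (hh : ∀ i j, 0 < h i j) (hk : ∀ i j, 0 < k i j)
    (ha : Pairwise fun i i' => Disjoint (box (a i) (h i)) (box (a i') (h i')))
    (hb : Pairwise fun i i' => Disjoint (box (b i) (k i)) (box (b i') (k i')))
    (hvol : ∀ i, ∏ j : Fin 3, k i j / h i j = 1) :
    ∃ (U : Field) (Φ : ℝ → (Fin 3 → ℝ) → (Fin 3 → ℝ)),
      ContDiff ℝ ∞ U ∧ HasCompactSupport U ∧ Effective U ∧
      (∀ p : ℝ × (Fin 3 → ℝ), p.1 ∉ Set.Icc (1 / 4 : ℝ) (3 / 4) → U p = 0) ∧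
      (∀ p : ℝ × (Fin 3 → ℝ), spaceDiv U p = 0) ∧ IsFlow U Φ ∧
      ∀ i : Fin n, ∃ O : Set (Fin 3 → ℝ), IsOpen O ∧ box (a i) (h i) ⊆ O ∧
        ∀ x ∈ O, Φ 1 x = fun j => (b i j : ℝ) + ((k i j / h i j : ℚ) : ℝ) * (x j - (a i j : ℝ)) :=
  final_of moveFieldEffective n a b h k hh hk ha hb hvol

end Crest.Agent.Helper21
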