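/-
S0170 team project (architect: helper21).  SPECIFICATION of the work packages.

Every theorem below is a target for one work package (WP).  The `sorry`s here are placeholders:
the owner of a WP proves a theorem with EXACTLY the same statement in his own file
`Crest/Agent/HelperNN/BoxFlow/<WP>.lean` (own namespace `Crest.Agent.HelperNN`), importing
`Crest.Agent.Helper21.BoxFlow.Defs` (and, while other packages are unfinished, this Spec file, to
use their statements).  The final file `Crest/Agent/S0170.lean` will import only finished,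
sorry-free packages.  Do NOT cite anything from this file in a finished package.
-/
import Crest.Agent.Helper21.BoxFlow.Defs

set_option autoImplicit false
open scoped ContDiff
open Crest.AnalysisR.BoxFlow Crest.Agent.Helper21

namespace Crest.Agent.Helper21.Spec

/-! ## WP-A4  computable rational arithmetic
(w.r.t. the default instance `Primcodable ℚ = Primcodable.ofDenumerable ℚ`, where
`Denumerable ℚ = Denumerable.ofEncodableOfInfinite ℚ`: codes enumerate the range of
`Rat.instEncodable.encode q = Nat.pair (encode q.num) q.den` in increasing order) -/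

theorem rat_add : Computable₂ (fun a b : ℚ => a + b) := sorry
theorem rat_neg : Computable (fun a : ℚ => -a) := sorry
theorem rat_sub : Computable₂ (fun a b : ℚ => a - b) := sorry
theorem rat_mul : Computable₂ (fun a b : ℚ => a * b) := sorry
theorem rat_inv : Computable (fun a : ℚ => a⁻¹) := sorry
theorem rat_div : Computable₂ (fun a b : ℚ => a / b) := sorry
theorem rat_natCast : Computable (fun n : ℕ => (n : ℚ)) := sorry
theorem rat_le : Computable₂ (fun a b : ℚ => decide (a ≤ b)) := sorry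
theorem rat_natCeil : Computable (fun a : ℚ => ⌈a⌉₊) := sorry

/-! ## WP-A2  computable approximation of the smooth step at rational points -/

theorem stp_approx : ∃ A : ℚ × ℕ → ℚ, Computable A ∧
    ∀ (r : ℚ) (n : ℕ), |stp (r : ℝ) - (A (r, n) : ℝ)| ≤ 1 / ((n : ℝ) + 1) := sorry

/-! ## WP-A1  computable bounds for all derivatives of the smooth step -/

theorem stp_iteratedDeriv_bound : ∃ B : ℕ → ℕ, Computable B ∧ Monotone B ∧
    ∀ (k : ℕ) (x : ℝ), |iteratedDeriv k stp x| ≤ (B k : ℝ) := sorry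

/-! ## WP-A3  effectiveness from values and bounds (finite differences) -/

theorem effective_of_values_bounds (F : Field) (hF : ContDiff ℝ ∞ F)
    (E₀ : (ℚ × (Fin 3 → ℚ)) × ℕ → (Fin 3 → ℚ)) (hE₀ : Computable E₀)
    (hval : ∀ (t : ℚ) (q : Fin 3 → ℚ) (n : ℕ) (j : Fin 3),
      |F ((t : ℝ), ratPoint q) j - (E₀ ((t, q), n) j : ℝ)| ≤ 1 / ((n : ℝ) + 1))
    (bound : List (Fin 4) → ℕ) (hb : Computable bound)
    (hbound : ∀ (ds : List (Fin 4)) (p : ℝ × (Fin 3 → ℝ)) (j : Fin 3),
      |mixedDeriv ds F p j| ≤ (bound ds : ℝ)) :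
    Effective F := sorry

/-! ## WP-E  closure properties of `Effective` -/

theorem effective_zero : Effective (fun _ => 0) := sorry

theorem effective_add (F G : Field) (hF : ContDiff ℝ ∞ F) (hG : ContDiff ℝ ∞ G)
    (eF : Effective F) (eG : Effective G) : Effective (fun p => F p + G p) := sorry

/-! ## WP-A5a  the move field: regularity, supports, divergence, plateau formula -/

section move
variable (a : Fin 3) (α : ℚ) (w lo hi : Fin 3 → ℚ) (m t₀ t₁ : ℚ)

theorem moveField_contDiff (hm : 0 < m) (ht : t₀ < t₁) :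
    ContDiff ℝ ∞ (moveField a α w lo hi m t₀ t₁) := sorry

theorem moveField_hasCompactSupport (hm : 0 < m) (ht : t₀ < t₁) :
    HasCompactSupport (moveField a α w lo hi m t₀ t₁) := sorry

theorem moveField_time_zero (hm : 0 < m) (ht : t₀ < t₁) (p : ℝ × Sp)
    (hp : p.1 ≤ (t₀ : ℝ) ∨ (t₁ : ℝ) ≤ p.1) : moveField a α w lo hi m t₀ t₁ p = 0 := sorry

theorem moveField_space_zero (hm : 0 < m) (ht : t₀ < t₁) (p : ℝ × Sp)
    (hp : p.2 ∉ openCell (fun l => lo l - m) (fun l => hi l + m)) :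
    moveField a α w lo hi m t₀ t₁ p = 0 := sorry

theorem moveField_div (hm : 0 < m) (ht : t₀ < t₁) (p : ℝ × Sp) :
    spaceDiv (moveField a α w lo hi m t₀ t₁) p = 0 := sorry

theorem moveField_plateau (hw : w a = 0) (hm : 0 < m) (ht : t₀ < t₁) (p : ℝ × Sp)
    (hp : p.2 ∈ closedCell lo hi) :
    moveField a α w lo hi m t₀ t₁ p =
      (deriv (timeProfile t₀ t₁) p.1 * affFun α w p.2) • (Pi.single a (1 : ℝ) : Sp) := sorry

/-! ## WP-A5b  the move field is effective -/

theorem moveField_effective (hm : 0 < m) (ht : t₀ < t₁) :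
    Effective (moveField a α w lo hi m t₀ t₁) := sorry

end move

/-! ## WP-A6  global flows of smooth compactly supported fields, and uniqueness -/

theorem flow_exists (U : Field) (hU : ContDiff ℝ ∞ U) (hc : HasCompactSupport U) (s₀ : ℝ) :
    ∃ Ψ : ℝ → Sp → Sp, (∀ x, Ψ s₀ x = x) ∧
      ∀ t x, HasDerivAt (fun s => Ψ s x) (U (t, Ψ t x)) t := sorry

theorem flow_unique_Icc (U : Field) (hU : ContDiff ℝ ∞ U) (hc : HasCompactSupport U)
    (γ₁ γ₂ : ℝ → Sp) (s₀ l r : ℝ) (hs : s₀ ∈ Set.Icc l r)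
    (h₁ : ∀ t ∈ Set.Icc l r, HasDerivAt γ₁ (U (t, γ₁ t)) t)
    (h₂ : ∀ t ∈ Set.Icc l r, HasDerivAt γ₂ (U (t, γ₂ t)) t) (h0 : γ₁ s₀ = γ₂ s₀) :
    ∀ t ∈ Set.Icc l r, γ₁ t = γ₂ t := sorry

/-! ## WP-A7  the move lemma (assembly of A5a, A5b, A6) -/

theorem move_lemma (a : Fin 3) (α : ℚ) (w lo hi : Fin 3 → ℚ) (m t₀ t₁ : ℚ)
    (hw : w a = 0) (hlh : ∀ j, lo j < hi j) (hm : 0 < m) (ht : t₀ < t₁) :
    ∃ (U : Field) (Ψ : ℝ → Sp → Sp),
      ContDiff ℝ ∞ U ∧ HasCompactSupport U ∧ Effective U ∧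
      (∀ p : ℝ × Sp, p.1 ≤ (t₀ : ℝ) ∨ (t₁ : ℝ) ≤ p.1 → U p = 0) ∧
      (∀ p : ℝ × Sp, spaceDiv U p = 0) ∧ IsFlowFrom t₀ U Ψ ∧
      (∀ x ∈ openCell lo hi, shearMap a α w x ∈ openCell lo hi →
        ∀ t : ℝ, (t₁ : ℝ) ≤ t → Ψ t x = shearMap a α w x) ∧
      (∀ x, x ∉ openCell (fun l => lo l - m) (fun l => hi l + m) → ∀ t, Ψ t x = x) := sorry

/-! ## WP-B  from a path of elementary moves to an admissible field -/

section reach
variable {n : ℕ} (a h : Fin n → Fin 3 → ℚ)

theorem reach_refl (T : ℝ) : Reach a h T (fun _ => id) := sorry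

theorem reach_step (C C' : Config n) (hC : ∀ i, Continuous (C i)) (T : ℝ) (hT : 1 / 4 ≤ T)
    (t₀ t₁ : ℚ) (h0 : T < (t₀ : ℝ)) (h1 : t₀ < t₁)
    (hR : Reach a h T C) (hS : Step a h C C') : Reach a h (t₁ : ℝ) C' := sorry

theorem reach_of_path (C : Config n)
    (hp : Relation.ReflTransGen (Step a h) (fun _ => id) C) : Reach a h (3 / 4) C := sorry

end reach

/-! ## WP-C  combinatorics: a path of elementary moves from the source to the target -/

section comb
variable {n : ℕ} (a h : Fin n → Fin 3 → ℚ)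

/-- C3: a step can be undone. -/
theorem step_symm (C C' : Config n) (hS : Step a h C C') : Step a h C' C := sorry

/-- C1: parking.  If the boxes currently sit in pairwise disjoint rational boxes `box (c i) (e i)`,
they can be translated, one at a time, to the parking positions (for all large `R`). -/
theorem parking (C : Config n) (c e : Fin n → Fin 3 → ℚ) (he : ∀ i j, 0 < e i j)
    (hdisj : Pairwise fun i i' => Disjoint (box (c i) (e i)) (box (c i') (e i')))
    (hC : ∀ i, ∀ x ∈ box (a i) (h i), C i x ∈ box (c i) (e i)) :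
    ∃ R₀ : ℚ, ∀ R : ℚ, R₀ ≤ R →
      Relation.ReflTransGen (Step a h) C
        (fun i x => C i x + ratPoint (fun j => parkPos R i j - c i j)) := sorry

/-- C2: reshaping at the parking positions by shears. -/
theorem reshape (k : Fin n → Fin 3 → ℚ) (hh : ∀ i j, 0 < h i j) (hk : ∀ i j, 0 < k i j)
    (hvol : ∀ i, ∏ j : Fin 3, k i j / h i j = 1) :
    ∃ R₀ : ℚ, ∀ R : ℚ, R₀ ≤ R →
      Relation.ReflTransGen (Step a h)
        (fun i x => x + ratPoint (fun j => parkPos R i j - a i j))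
        (fun i x j => (parkPos R i j : ℝ) + ((k i j / h i j : ℚ) : ℝ) * (x j - (a i j : ℝ))) :=
  sorry

/-- C3: the whole path. -/
theorem path_exists (b k : Fin n → Fin 3 → ℚ)
    (hh : ∀ i j, 0 < h i j) (hk : ∀ i j, 0 < k i j)
    (ha : Pairwise fun i i' => Disjoint (box (a i) (h i)) (box (a i') (h i')))
    (hb : Pairwise fun i i' => Disjoint (box (b i) (k i)) (box (b i') (k i')))
    (hvol : ∀ i, ∏ j : Fin 3, k i j / h i j = 1) :
    Relation.ReflTransGen (Step a h) (fun _ => id) (targetMap a b h k) := sorry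

end comb

/-! ## WP-D  the statement (assembly; will live in Crest/Agent/S0170.lean) -/

theorem final
    (n : ℕ) (a b h k : Fin n → Fin 3 → ℚ)
    (hh : ∀ i j, 0 < h i j) (hk : ∀ i j, 0 < k i j)
    (ha : Pairwise fun i i' => Disjoint (box (a i) (h i)) (box (a i') (h i')))
    (hb : Pairwise fun i i' => Disjoint (box (b i) (k i)) (box (b i') (k i')))
    (hvol : ∀ i, ∏ j : Fin 3, k i j / h i j = 1) :
    ∃ (U : Field) (Φ : ℝ → (Fin 3 → ℝ) → (Fin 3 → ℝ)),
      ContDiff ℝ ∞ U ∧ HasCompactSupport U ∧ Effective U ∧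
      (∀ p : ℝ × (Fin 3 → ℝ), p.1 ∉ Set.Icc (1 / 4 : ℝ) (3 / 4) → U p = 0) ∧
      (∀ p : ℝ × (Fin 3 → ℝ), spaceDiv U p = 0) ∧ IsFlow U Φ ∧
      ∀ i : Fin n, ∃ O : Set (Fin 3 → ℝ), IsOpen O ∧ box (a i) (h i) ⊆ O ∧
        ∀ x ∈ O, Φ 1 x = fun j => (b i j : ℝ) + ((k i j / h i j : ℚ) : ℝ) * (x j - (a i j : ℝ)) := by
  obtain ⟨U, Φ, hU, hc, hE, hz, hd, hf, hO⟩ :=
    reach_of_path a h _ (path_exists a h b k hh hk ha hb hvol)
  refine ⟨U, Φ, hU, hc, hE, ?_, hd, hf, ?_⟩
  · intro p hp
    apply hz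
    simp only [Set.mem_Icc, not_and_or, not_le] at hp
    rcases hp with hp | hp
    · exact Or.inl hp.le
    · exact Or.inr hp.le
  · intro i
    obtain ⟨O, hO1, hO2, hO3⟩ := hO i
    refine ⟨O, hO1, hO2, fun x hx => ?_⟩
    have := hO3 x hx 1 (by norm_num)
    rw [this]
    rfl

end Crest.Agent.Helper21.Spec
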